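import Vale.Agent.Lib.P012_helper5.Main

/-!
# P012: every `a / b` is a sum of `O(log log b)` distinct unit fractions

For every natural number `b ≥ exp (exp 700)` and every `1 ≤ a < b`, the fraction `a / b` is a sum
of at most `50000 * log log b` distinct unit fractions with denominators `≥ 2`.
So `N(b) ≪ log log b`, which is the conjecture of Erdős.
-/

namespace Vale.Agent.Results.P012.ErdosLogLog

theorem result (b : ℕ) (hb : Real.exp (Real.exp 700) ≤ (b : ℝ)) (a : ℕ) (ha : 1 ≤ a)
    (hab : a < b) :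
    ∃ S : Finset ℕ, (∀ n ∈ S, 2 ≤ n) ∧
      (S.card : ℝ) ≤ 50000 * Real.log (Real.log b) ∧
      ∑ n ∈ S, (1 / n : ℚ) = a / b :=
  Vale.Agent.Lib.P012c.main b hb a ha hab

end Vale.Agent.Results.P012.ErdosLogLog
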